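/-
Snaky game: a simple inductive "Maker wins within n moves" predicate on positions and the reduction
of the frozen statement S0047 to `Wins 21 ∅ ∅`.
-/
import Mathlib
import Crest.Prelude.Def_PolyominoGame

set_option autoImplicit false

namespace Crest.Agent.Lib.Snaky

open Crest.CombinatoricsR.PolyominoGame

abbrev Cell := ℤ × ℤ

theorem containsCopy_mono {X Y : Set Cell} (h : X ⊆ Y) (hX : ContainsCopy X) : ContainsCopy Y := by
  obtain ⟨t, e1, e2, h1, h2, h3⟩ := hX
  refine ⟨t, e1, e2, h1, h2, ?_⟩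
  rcases h3 with h3 | h3
  · exact Or.inl fun p hp => h (h3 p hp)
  · exact Or.inr fun p hp => h (h3 p hp)

/-- `Wins n M B`: with Maker on `M` and Breaker on `B`, Maker to move, Maker gets a copy within `n`
further moves. -/
def Wins : ℕ → Set Cell → Set Cell → Prop
  | 0, M, _ => ContainsCopy M
  | n + 1, M, B =>
    ContainsCopy M ∨
      ∃ m, m ∉ M ∧ m ∉ B ∧ ∀ c, c ≠ m → c ∉ M → c ∉ B → Wins n (insert m M) (insert c B)

theorem Wins.of_copy : ∀ (n : ℕ) {M B : Set Cell}, ContainsCopy M → Wins n M B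
  | 0, _, _, h => h
  | _ + 1, _, _, h => Or.inl h

theorem Wins.succ : ∀ {n : ℕ} {M B : Set Cell}, Wins n M B → Wins (n + 1) M B
  | 0, _, _, h => Or.inl h
  | _ + 1, _, _, h => by
    rcases h with h | ⟨m, h1, h2, h3⟩
    · exact Or.inl h
    · exact Or.inr ⟨m, h1, h2, fun c hc hM hB => Wins.succ (h3 c hc hM hB)⟩

theorem Wins.mono_budget {n k : ℕ} (hnk : n ≤ k) {M B : Set Cell} (h : Wins n M B) : Wins k M B := by
  induction hnk with
  | refl => exact h
  | step _ ih => exact Wins.succ ih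

theorem exists_good_move {n : ℕ} {M B : Set Cell} (hM : M.Finite) (hB : B.Finite)
    (h : Wins (n + 1) M B) :
    ∃ m, m ∉ M ∧ m ∉ B ∧ ∀ c, c ≠ m → c ∉ M → c ∉ B → Wins n (insert m M) (insert c B) := by
  rcases h with h | h
  · obtain ⟨p, hp⟩ := (hM.union hB).exists_notMem
    refine ⟨p, fun hh => hp (Or.inl hh), fun hh => hp (Or.inr hh), fun c _ _ _ => ?_⟩
    exact Wins.of_copy n (containsCopy_mono (Set.subset_insert _ _) h)
  · exact h

open Classical in
/-- Maker's chosen move when `n` further moves remain after it. -/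
noncomputable def nextMove (n : ℕ) (M B : Set Cell) : Cell :=
  if h : ∃ m, m ∉ M ∧ m ∉ B ∧ ∀ c, c ≠ m → c ∉ M → c ∉ B → Wins n (insert m M) (insert c B)
  then h.choose else (0, 0)

theorem nextMove_spec {n : ℕ} {M B : Set Cell} (hM : M.Finite) (hB : B.Finite)
    (h : Wins (n + 1) M B) :
    nextMove n M B ∉ M ∧ nextMove n M B ∉ B ∧
      ∀ c, c ≠ nextMove n M B → c ∉ M → c ∉ B → Wins n (insert (nextMove n M B) M) (insert c B) := by
  have hex := exists_good_move hM hB h
  unfold nextMove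
  rw [dif_pos hex]
  exact hex.choose_spec

/-- Strategy state: remaining budget, Maker's cells, Breaker's cells. -/
noncomputable def stepSt (s : ℕ × Set Cell × Set Cell) (c : Cell) : ℕ × Set Cell × Set Cell :=
  (s.1 - 1, insert (nextMove (s.1 - 1) s.2.1 s.2.2) s.2.1, insert c s.2.2)

noncomputable def stOf (l : List Cell) : ℕ × Set Cell × Set Cell :=
  l.foldl stepSt (21, ∅, ∅)

noncomputable def policy (l : List Cell) : Cell :=
  nextMove ((stOf l).1 - 1) (stOf l).2.1 (stOf l).2.2

theorem stOf_range_succ (b : ℕ → Cell) (k : ℕ) :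
    stOf ((List.range (k + 1)).map b) = stepSt (stOf ((List.range k).map b)) (b k) := by
  simp [stOf, List.range_succ, List.map_append, List.foldl_append]

theorem statement_of_wins (hw : Wins 21 ∅ ∅) :
    ∃ σ : List (ℤ × ℤ) → ℤ × ℤ, ∀ b : ℕ → ℤ × ℤ,
      (∀ k : ℕ, k < 20 →
        (∀ j : ℕ, j ≤ k → b k ≠ makerClaim σ b j) ∧
        (∀ j : ℕ, j < k → b k ≠ b j)) →
      (∀ k : ℕ, k ≤ 20 →
        (∀ j : ℕ, j < k → makerClaim σ b k ≠ makerClaim σ b j) ∧
        (∀ j : ℕ, j < k → makerClaim σ b k ≠ b j)) ∧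
      ContainsCopy {c | ∃ j : ℕ, j ≤ 20 ∧ c = makerClaim σ b j} := by
  refine ⟨policy, fun b hb => ?_⟩
  set claim : ℕ → Cell := makerClaim policy b with hclaim
  -- the state after `k` exchanges
  set S : ℕ → ℕ × Set Cell × Set Cell := fun k => stOf ((List.range k).map b) with hS
  have hclaim' : ∀ k, claim k = nextMove ((S k).1 - 1) (S k).2.1 (S k).2.2 := fun k => rfl
  have hstep : ∀ k, S (k + 1) = stepSt (S k) (b k) := fun k => stOf_range_succ b k
  -- invariant
  have inv : ∀ k, k ≤ 20 →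
      (S k).1 = 21 - k ∧ (S k).2.1 = {c | ∃ j, j < k ∧ c = claim j} ∧
        (S k).2.2 = {c | ∃ j, j < k ∧ c = b j} ∧ Wins (21 - k) (S k).2.1 (S k).2.2 := by
    intro k
    induction k with
    | zero =>
      intro _
      refine ⟨rfl, ?_, ?_, ?_⟩
      · ext c; simp [S, stOf]
      · ext c; simp [S, stOf]
      · simpa [S, stOf] using hw
    | succ k ih =>
      intro hk
      obtain ⟨h1, h2, h3, h4⟩ := ih (by omega)
      have hfinM : ((S k).2.1).Finite := by
        rw [h2]
        exact (Set.finite_lt_nat k).image claim |>.subset (by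
          rintro c ⟨j, hj, rfl⟩; exact ⟨j, hj, rfl⟩)
      have hfinB : ((S k).2.2).Finite := by
        rw [h3]
        exact (Set.finite_lt_nat k).image b |>.subset (by
          rintro c ⟨j, hj, rfl⟩; exact ⟨j, hj, rfl⟩)
      have hbud : 21 - k = (20 - k) + 1 := by omega
      have h4' : Wins ((20 - k) + 1) (S k).2.1 (S k).2.2 := hbud ▸ h4
      have hbud' : (S k).1 - 1 = 20 - k := by omega
      obtain ⟨s1, s2, s3⟩ := nextMove_spec hfinM hfinB h4'
      have hcl : claim k = nextMove (20 - k) (S k).2.1 (S k).2.2 := by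
        rw [hclaim', hbud']
      rw [← hcl] at s1 s2 s3
      have hSk1 : S (k + 1) = (20 - k, insert (claim k) (S k).2.1, insert (b k) (S k).2.2) := by
        rw [hstep, stepSt, hbud', hcl]
      have hbk := hb k (by omega)
      have hr1 : b k ≠ claim k := hbk.1 k le_rfl
      have hr2 : b k ∉ (S k).2.1 := by
        rw [h2]; rintro ⟨j, hj, hh⟩; exact hbk.1 j (by omega) hh
      have hr3 : b k ∉ (S k).2.2 := by
        rw [h3]; rintro ⟨j, hj, hh⟩; exact hbk.2 j hj hh
      have hw' := s3 (b k) hr1 hr2 hr3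
      rw [hSk1]
      refine ⟨by simp, ?_, ?_, ?_⟩
      · simp only; rw [h2]; ext c
        simp only [Set.mem_insert_iff, Set.mem_ofPred_eq]
        constructor
        · rintro (rfl | ⟨j, hj, rfl⟩)
          · exact ⟨k, by omega, rfl⟩
          · exact ⟨j, by omega, rfl⟩
        · rintro ⟨j, hj, rfl⟩
          rcases Nat.lt_succ_iff_lt_or_eq.mp hj with hj | rfl
          · exact Or.inr ⟨j, hj, rfl⟩
          · exact Or.inl rfl
      · simp only; rw [h3]; ext c
        simp only [Set.mem_insert_iff, Set.mem_ofPred_eq]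
        constructor
        · rintro (rfl | ⟨j, hj, rfl⟩)
          · exact ⟨k, by omega, rfl⟩
          · exact ⟨j, by omega, rfl⟩
        · rintro ⟨j, hj, rfl⟩
          rcases Nat.lt_succ_iff_lt_or_eq.mp hj with hj | rfl
          · exact Or.inr ⟨j, hj, rfl⟩
          · exact Or.inl rfl
      · have : 21 - (k + 1) = 20 - k := by omega
        rw [this]; exact hw'
  constructor
  · intro k hk
    obtain ⟨h1, h2, h3, h4⟩ := inv k hk
    have hfinM : ((S k).2.1).Finite := by
      rw [h2]
      exact (Set.finite_lt_nat k).image claim |>.subset (by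
        rintro c ⟨j, hj, rfl⟩; exact ⟨j, hj, rfl⟩)
    have hfinB : ((S k).2.2).Finite := by
      rw [h3]
      exact (Set.finite_lt_nat k).image b |>.subset (by
        rintro c ⟨j, hj, rfl⟩; exact ⟨j, hj, rfl⟩)
    have hbud : 21 - k = (20 - k) + 1 := by omega
    have h4' : Wins ((20 - k) + 1) (S k).2.1 (S k).2.2 := hbud ▸ h4
    have hbud' : (S k).1 - 1 = 20 - k := by omega
    obtain ⟨s1, s2, -⟩ := nextMove_spec hfinM hfinB h4'
    have hcl : claim k = nextMove (20 - k) (S k).2.1 (S k).2.2 := by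
      rw [hclaim', hbud']
    rw [← hcl] at s1 s2
    constructor
    · intro j hj hh
      apply s1; rw [h2]; exact ⟨j, hj, hh⟩
    · intro j hj hh
      apply s2; rw [h3]; exact ⟨j, hj, hh⟩
  · obtain ⟨h1, h2, h3, h4⟩ := inv 20 le_rfl
    have hfinM : ((S 20).2.1).Finite := by
      rw [h2]
      exact (Set.finite_lt_nat 20).image claim |>.subset (by
        rintro c ⟨j, hj, rfl⟩; exact ⟨j, hj, rfl⟩)
    have hfinB : ((S 20).2.2).Finite := by
      rw [h3]
      exact (Set.finite_lt_nat 20).image b |>.subset (by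
        rintro c ⟨j, hj, rfl⟩; exact ⟨j, hj, rfl⟩)
    have h4' : Wins (0 + 1) (S 20).2.1 (S 20).2.2 := h4
    have hbud' : (S 20).1 - 1 = 0 := by omega
    obtain ⟨s1, s2, s3⟩ := nextMove_spec hfinM hfinB h4'
    have hcl : claim 20 = nextMove 0 (S 20).2.1 (S 20).2.2 := by
      rw [hclaim', hbud']
    rw [← hcl] at s1 s2 s3
    -- pick a fresh reply
    obtain ⟨c, hc⟩ := ((hfinM.union hfinB).union (Set.finite_singleton (claim 20))).exists_notMem
    have hc1 : c ≠ claim 20 := fun hh => hc (Or.inr hh)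
    have hc2 : c ∉ (S 20).2.1 := fun hh => hc (Or.inl (Or.inl hh))
    have hc3 : c ∉ (S 20).2.2 := fun hh => hc (Or.inl (Or.inr hh))
    have hfinal : ContainsCopy (insert (claim 20) (S 20).2.1) := s3 c hc1 hc2 hc3
    refine containsCopy_mono ?_ hfinal
    rw [h2]
    rintro c (rfl | ⟨j, hj, rfl⟩)
    · exact ⟨20, le_rfl, rfl⟩
    · exact ⟨j, by omega, rfl⟩

end Crest.Agent.Lib.Snaky
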