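/-
Kernel-efficient certificate checker for the Snaky game: a stack machine over 16-bit tokens.
All functions are written with recursors and raw `Nat` primitives so that the kernel evaluates them
fast.  Soundness is in `Sound.lean`.
-/
import Mathlib

set_option autoImplicit false

namespace Crest.Agent.Lib.Snaky

/-- Evaluation stack. `comp n M S` is a finished subtree, `part n M S U` a subtree with replies
still to handle. -/
inductive Stack where
  | nil
  | comp (n M S : Nat) (rest : Stack)
  | part (n M S U : Nat) (rest : Stack)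

/-- Store for shared subtrees (a Braun tree). -/
inductive Memo where
  | nil
  | node (n M S : Nat) (l r : Memo)

/-- Binary tree of chunks of tokens; `fuel` is the number of instructions of the chunk. -/
inductive Chunks where
  | leaf (fuel c : Nat)
  | node (l r : Chunks)

/-- Two way branch (true branch first). -/
@[reducible] noncomputable def ifB (c : Bool) (t e : Bool) : Bool :=
  Bool.rec (motive := fun _ => Bool) e t c

/-- Case split on zero. -/
@[reducible] noncomputable def nz (x : Nat) (z : Bool) (s : Nat → Bool) : Bool :=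
  Nat.rec (motive := fun _ => Bool) z (fun p _ => s p) x

/-- `M` without the bit `b` (a power of two). -/
@[reducible] def clr (M b : Nat) : Nat := Nat.xor (Nat.lor M b) b

abbrev Cont := Stack → Memo → Bool

/-- The six-bit masks of the eight orientations of Snaky, each normalised to its bounding box, in
fields of 136 bits. -/
def patTable : Nat :=
  Nat.lor 0x180000000f <| Nat.lor (Nat.shiftLeft 0xf00000018 136) <|
  Nat.lor (Nat.shiftLeft 0x30000001e 272) <| Nat.lor (Nat.shiftLeft 0x1e00000003 408) <|
  Nat.lor (Nat.shiftLeft 0x200000003000000010000000100000001 544) <|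
  Nat.lor (Nat.shiftLeft 0x100000001000000010000000300000002 680) <|
  Nat.lor (Nat.shiftLeft 0x100000003000000020000000200000002 816) <|
  Nat.shiftLeft 0x200000002000000020000000300000001 952

/-- Orientation `o` (below 8). -/
@[reducible] def patOf (o : Nat) : Nat :=
  Nat.mod (Nat.shiftRight patTable (Nat.mul o 136)) 87112285931760246646623899502532662132736

/-- Leaf: `arg = corner + 1024 * o`. -/
noncomputable def opLeaf (k : Cont) (st : Stack) (me : Memo) (arg : Nat) : Bool :=
  Bool.rec (motive := fun _ => Bool) false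
    (k (Stack.comp 0 (Nat.shiftLeft (patOf (Nat.mod (Nat.shiftRight arg 10) 8)) (Nat.mod arg 1024)) 0 st) me)
    (Nat.ble (Nat.mod arg 32) 27)

/-- Maximum. -/
noncomputable def maxN (a b : Nat) : Nat :=
  Nat.rec (motive := fun _ => Nat) b (fun _ _ => a) (Nat.sub a b)

noncomputable def brC (k : Cont) (me : Memo) (bc n1 M1 S1 : Nat) (n M S : Nat) (rest : Stack) (_ : Bool) : Bool :=
  k (Stack.part (maxN n n1) (Nat.lor M M1) (Nat.lor S S1) (Nat.xor (Nat.lor S bc) bc) rest) me

noncomputable def brP (k : Cont) (me : Memo) (bc n1 M1 S1 : Nat) (n M S U : Nat) (rest : Stack) (_ : Bool) : Bool :=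
  k (Stack.part (maxN n n1) (Nat.lor M M1) (Nat.lor S S1) (Nat.xor (Nat.lor U bc) bc) rest) me

noncomputable def br1 (k : Cont) (me : Memo) (bc n1 M1 S1 : Nat) (rest : Stack) (_ : Bool) : Bool :=
  Bool.rec (motive := fun _ => Bool) false
    (Stack.rec (motive := fun _ => Bool) false (brC k me bc n1 M1 S1) (brP k me bc n1 M1 S1) rest)
    (Nat.beq (Nat.land S1 bc) 0)

noncomputable def fls5 (_ _ _ _ : Nat) (_ : Stack) (_ : Bool) : Bool := false

/-- Merge the finished top item, answering reply `c`, into the item below. -/
noncomputable def opBranch (k : Cont) (st : Stack) (me : Memo) (c : Nat) : Bool :=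
  Stack.rec (motive := fun _ => Bool) false (br1 k me (Nat.shiftLeft 1 c)) fls5 st

noncomputable def plC (k : Cont) (me : Memo) (bm n M S : Nat) (rest : Stack) (_ : Bool) : Bool :=
  Bool.rec (motive := fun _ => Bool) false
    (k (Stack.comp (Nat.succ n) (Nat.xor (Nat.lor M bm) bm) bm rest) me)
    (Nat.beq (Nat.mul S (Nat.succ (Nat.xor (Nat.lor M bm) bm))) 0)

noncomputable def plP (k : Cont) (me : Memo) (bm n M S U : Nat) (rest : Stack) (_ : Bool) : Bool :=
  Bool.rec (motive := fun _ => Bool) false
    (k (Stack.comp (Nat.succ n) (Nat.xor (Nat.lor M bm) bm) (Nat.lor S bm) rest) me)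
    (Nat.beq (Nat.mul (Nat.lor U (Nat.land S bm)) (Nat.succ (Nat.lor (Nat.xor (Nat.lor M bm) bm) n))) 0)

/-- Maker plays `m`; all replies must have been handled. -/
noncomputable def opPlay (k : Cont) (st : Stack) (me : Memo) (m : Nat) : Bool :=
  Stack.rec (motive := fun _ => Bool) false (plC k me (Nat.shiftLeft 1 m)) (plP k me (Nat.shiftLeft 1 m)) st

/-- Insert in the Braun tree with continuation (all forced). -/
noncomputable def insertK (n M S : Nat) (me : Memo) : Nat → (Memo → Bool) → Bool :=
  Memo.rec (motive := fun _ => Nat → (Memo → Bool) → Bool)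
    (fun _ k => k (Memo.node n M S Memo.nil Memo.nil))
    (fun n' M' S' l r ihl ihr id k =>
      nz id (k (Memo.node n' M' S' l r)) fun p =>
      nz (Nat.mod p 2)
        (ihl (Nat.div p 2) fun l' => k (Memo.node n' M' S' l' r))
        (fun _ => ihr (Nat.div p 2) fun r' => k (Memo.node n' M' S' l r')))
    me

/-- Lookup in the Braun tree with continuation. -/
noncomputable def lookupK (me : Memo) : Nat → (Nat → Nat → Nat → Bool) → Bool :=
  Memo.rec (motive := fun _ => Nat → (Nat → Nat → Nat → Bool) → Bool)
    (fun _ _ => false)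
    (fun n M S _ _ ihl ihr id k =>
      nz id (k n M S) fun p =>
      nz (Nat.mod p 2)
        (ihl (Nat.div p 2) k)
        (fun _ => ihr (Nat.div p 2) k))
    me

/-- Store the finished top item at index `i`. -/
noncomputable def opStore (k : Cont) (st : Stack) (me : Memo) (i : Nat) : Bool :=
  Stack.rec (motive := fun _ => Bool) false
    (fun n M S _ _ =>
      insertK n M S me i fun me' => k st me')
    (fun _ _ _ _ _ _ => false)
    st

/-- Push the item stored at index `i`. -/
noncomputable def opRef (k : Cont) (st : Stack) (me : Memo) (i : Nat) : Bool :=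
  lookupK me i fun n M S => k (Stack.comp n M S st) me

/-- Call `f` with `x` evaluated to a literal. -/
@[reducible] noncomputable def fb (x : Nat) (f : Nat → Bool) : Bool :=
  Nat.rec (motive := fun _ => Bool) (f 0) (fun p _ => f p) (Nat.succ x)

/-- One coordinate of a symmetry: `e = 0`: `u + t - 32`; `e ≠ 0`: `t - u`. -/
noncomputable def coord (e t u : Nat) (k : Nat → Bool) : Bool :=
  nz e
    (ifB (Nat.ble 32 (Nat.add u t)) (k (Nat.sub (Nat.add u t) 32)) false)
    (fun _ => ifB (Nat.ble u t) (k (Nat.sub t u)) false)

/-- Image of a board index under a symmetry. -/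
noncomputable def mapOne (sw e1 e2 tx ty i : Nat) (k : Nat → Bool) : Bool :=
  fb (Nat.mod i 32) fun x =>
  fb (Nat.div i 32) fun y =>
  nz sw
    (coord e1 tx x fun x' => ifB (Nat.ble x' 31) (coord e2 ty y fun y' =>
      k (Nat.add x' (Nat.mul 32 y'))) false)
    (fun _ => coord e1 tx y fun x' => ifB (Nat.ble x' 31) (coord e2 ty x fun y' =>
      k (Nat.add x' (Nat.mul 32 y'))) false)

/-- Image of a mask under a symmetry. -/
noncomputable def mapMask (sw e1 e2 tx ty fuel : Nat) : Nat → Nat → (Nat → Bool) → Bool :=
  Nat.rec (motive := fun _ => Nat → Nat → (Nat → Bool) → Bool)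
    (fun _ _ _ => false)
    (fun _ ih mask acc k =>
      nz mask (k acc) fun _ =>
      mapOne sw e1 e2 tx ty (Nat.log2 mask) fun i' =>
      ih (Nat.xor mask (Nat.shiftLeft 1 (Nat.log2 mask))) (Nat.lor acc (Nat.shiftLeft 1 i')) k)
    fuel

/-- Apply a symmetry to the finished top item. `arg` has the flags, `par = tx + 64 * ty`. -/
noncomputable def opSym (k : Cont) (st : Stack) (me : Memo) (arg par : Nat) : Bool :=
  Stack.rec (motive := fun _ => Bool) false
    (fun n M S rest _ =>
      fb (Nat.mod arg 2) fun sw =>
      fb (Nat.mod (Nat.div arg 2) 2) fun e1 =>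
      fb (Nat.mod (Nat.div arg 4) 2) fun e2 =>
      fb (Nat.mod par 64) fun tx =>
      fb (Nat.div par 64) fun ty =>
      mapMask sw e1 e2 tx ty 1100 M 0 fun M' =>
      mapMask sw e1 e2 tx ty 1100 S 0 fun S' =>
      k (Stack.comp n M' S' rest) me)
    (fun _ _ _ _ _ _ => false)
    st

noncomputable def d6 (ih : Nat → Cont) (cur : Nat) (st : Stack) (me : Memo) (_ : Nat) (_ : Bool) : Bool :=
  opSym (ih (Nat.shiftRight cur 32)) st me (Nat.land (Nat.shiftRight cur 3) 8191)
    (Nat.land (Nat.shiftRight cur 16) 65535)

noncomputable def d5 (ih : Nat → Cont) (cur : Nat) (st : Stack) (me : Memo) (op : Nat) (_ : Bool) : Bool :=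
  Nat.rec (motive := fun _ => Bool)
    (opRef (ih (Nat.shiftRight cur 32)) st me
      (Nat.add (Nat.land (Nat.shiftRight cur 3) 8191) (Nat.shiftLeft (Nat.land (Nat.shiftRight cur 16) 65535) 13)))
    (d6 ih cur st me) op

noncomputable def d4 (ih : Nat → Cont) (cur : Nat) (st : Stack) (me : Memo) (op : Nat) (_ : Bool) : Bool :=
  Nat.rec (motive := fun _ => Bool)
    (opStore (ih (Nat.shiftRight cur 32)) st me
      (Nat.add (Nat.land (Nat.shiftRight cur 3) 8191) (Nat.shiftLeft (Nat.land (Nat.shiftRight cur 16) 65535) 13)))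
    (d5 ih cur st me) op

noncomputable def d3 (ih : Nat → Cont) (cur : Nat) (st : Stack) (me : Memo) (op : Nat) (_ : Bool) : Bool :=
  Nat.rec (motive := fun _ => Bool) (opBranch (ih (Nat.shiftRight cur 16)) st me (Nat.land (Nat.shiftRight cur 3) 8191))
    (d4 ih cur st me) op

noncomputable def d2 (ih : Nat → Cont) (cur : Nat) (st : Stack) (me : Memo) (op : Nat) (_ : Bool) : Bool :=
  Nat.rec (motive := fun _ => Bool) (opPlay (ih (Nat.shiftRight cur 16)) st me (Nat.land (Nat.shiftRight cur 3) 8191))
    (d3 ih cur st me) op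

/-- One instruction. `tok = op + 8 * arg`; two-token instructions read their parameter in the next
token. -/
noncomputable def stepTok (_ : Nat) (ih : Nat → Cont) (cur : Nat) (st : Stack) (me : Memo) : Bool :=
  Nat.rec (motive := fun _ => Bool) (opLeaf (ih (Nat.shiftRight cur 16)) st me (Nat.land (Nat.shiftRight cur 3) 8191))
    (d2 ih cur st me)
    (Nat.land cur 7)

/-- Run `fuel` instructions from a chunk, then `k`. -/
noncomputable def runChunk (k : Cont) (fuel : Nat) : Nat → Cont :=
  Nat.rec (motive := fun _ => Nat → Cont) (fun _ => k) stepTok fuel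

/-- Run a tree of chunks. -/
noncomputable def runTree (t : Chunks) : Cont → Cont :=
  Chunks.rec (motive := fun _ => Cont → Cont)
    (fun fuel c k st me => runChunk k fuel c st me)
    (fun _ _ ihl ihr k st me => ihl (ihr k) st me)
    t

/-- Final check: the top of the stack is the announced item. -/
noncomputable def finCheck (n M S : Nat) : Cont :=
  fun st _ =>
    Stack.rec (motive := fun _ => Bool) false
      (fun n' M' S' _ _ => ifB (Nat.ble n' n) (ifB (Nat.beq M' M) (Nat.beq S' S) false) false)
      (fun _ _ _ _ _ _ => false)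
      st

end Crest.Agent.Lib.Snaky
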