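/-
Soundness of the Snaky certificate checker.
-/
import Crest.Agent.Lib.Snaky.Game
import Crest.Agent.Lib.Snaky.Machine

set_option autoImplicit false
set_option linter.unreachableTactic false
set_option linter.unusedTactic false
set_option linter.unnecessarySeqFocus false

namespace Crest.Agent.Lib.Snaky

open Crest.CombinatoricsR.PolyominoGame

/-- Board index to cell. -/
def cellOf (i : ℕ) : Cell := (((i % 32 : ℕ) : ℤ), ((i / 32 : ℕ) : ℤ))

theorem cellOf_inj {i j : ℕ} (h : cellOf i = cellOf j) : i = j := by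
  simp only [cellOf, Prod.mk.injEq, Nat.cast_inj] at h
  omega

/-- The cells of a mask. -/
def cellsOf (mask : ℕ) : Set Cell := {p | ∃ i, mask.testBit i = true ∧ cellOf i = p}

theorem mem_cellsOf {mask i : ℕ} : cellOf i ∈ cellsOf mask ↔ mask.testBit i = true := by
  constructor
  · rintro ⟨j, hj, h⟩
    rwa [← cellOf_inj h]
  · intro h
    exact ⟨i, h, rfl⟩

theorem cellsOf_zero : cellsOf 0 = ∅ := by
  ext p
  simp [cellsOf]

theorem cellsOf_lor (a b : ℕ) : cellsOf (Nat.lor a b) = cellsOf a ∪ cellsOf b := by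
  ext p
  constructor
  · rintro ⟨i, hi, rfl⟩
    have : (a ||| b).testBit i = true := hi
    rw [Nat.testBit_or] at this
    rcases Bool.or_eq_true_iff.mp this with h | h
    · exact Or.inl ⟨i, h, rfl⟩
    · exact Or.inr ⟨i, h, rfl⟩
  · rintro (⟨i, hi, rfl⟩ | ⟨i, hi, rfl⟩)
    · refine ⟨i, ?_, rfl⟩
      change (a ||| b).testBit i = true
      simp [hi]
    · refine ⟨i, ?_, rfl⟩
      change (a ||| b).testBit i = true
      simp [hi]

theorem testBit_bit (m i : ℕ) : (Nat.shiftLeft 1 m).testBit i = decide (i = m) := by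
  change (1 <<< m).testBit i = _
  rw [Nat.one_shiftLeft, Nat.testBit_two_pow]
  simp [eq_comm]

theorem cellsOf_bit (m : ℕ) : cellsOf (Nat.shiftLeft 1 m) = {cellOf m} := by
  ext p
  constructor
  · rintro ⟨i, hi, rfl⟩
    rw [testBit_bit] at hi
    simp only [decide_eq_true_eq] at hi
    simp [hi]
  · rintro rfl
    exact ⟨m, by rw [testBit_bit]; simp, rfl⟩

theorem testBit_clr (M m i : ℕ) :
    (Nat.xor (Nat.lor M (Nat.shiftLeft 1 m)) (Nat.shiftLeft 1 m)).testBit i =
      (M.testBit i && decide (i ≠ m)) := by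
  change ((M ||| Nat.shiftLeft 1 m) ^^^ Nat.shiftLeft 1 m).testBit i = _
  rw [Nat.testBit_xor, Nat.testBit_or, testBit_bit]
  by_cases h : i = m
  · simp [h]
  · simp [h]

theorem mem_cellsOf_clr {M m : ℕ} {p : Cell} :
    p ∈ cellsOf (Nat.xor (Nat.lor M (Nat.shiftLeft 1 m)) (Nat.shiftLeft 1 m)) ↔
      p ∈ cellsOf M ∧ p ≠ cellOf m := by
  constructor
  · rintro ⟨i, hi, rfl⟩
    rw [testBit_clr] at hi
    simp only [Bool.and_eq_true, decide_eq_true_eq] at hi
    exact ⟨⟨i, hi.1, rfl⟩, fun h => hi.2 (cellOf_inj h)⟩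
  · rintro ⟨⟨i, hi, rfl⟩, h⟩
    refine ⟨i, ?_, rfl⟩
    rw [testBit_clr]
    simp only [Bool.and_eq_true, decide_eq_true_eq]
    exact ⟨hi, fun hh => h (by rw [hh])⟩

theorem not_mem_of_land {S m : ℕ} (h : Nat.land S (Nat.shiftLeft 1 m) = 0) :
    cellOf m ∉ cellsOf S := by
  rw [mem_cellsOf]
  intro hs
  have h1 : (S &&& Nat.shiftLeft 1 m).testBit m = true := by
    rw [Nat.testBit_and, hs, testBit_bit]; simp
  have h2 : S &&& Nat.shiftLeft 1 m = 0 := h
  rw [h2] at h1
  simp at h1

/-- A finished subtree: if all its Maker stones `M` are present and every cell where it may move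
(`S`) is free, Maker wins within `n` moves. -/
def Comp (n M S : ℕ) : Prop :=
  ∀ M' B' : Set Cell, cellsOf M ⊆ M' → Disjoint M' (cellsOf S) → Disjoint B' (cellsOf S) →
    Wins n M' B'

/-- A subtree under construction: the same after any Breaker reply `c` outside `U`. -/
def Part (n M S U : ℕ) : Prop :=
  ∀ M' B' : Set Cell, cellsOf M ⊆ M' → Disjoint M' (cellsOf S) → Disjoint B' (cellsOf S) →
    ∀ c, c ∉ cellsOf U → c ∉ M' → c ∉ B' → Wins n M' (insert c B')

theorem Comp.mono {n k M S : ℕ} (h : Comp n M S) (hnk : n ≤ k) : Comp k M S :=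
  fun M' B' h1 h2 h3 => Wins.mono_budget hnk (h M' B' h1 h2 h3)

theorem Comp.toPart {n M S : ℕ} (h : Comp n M S) : Part n M S S := by
  intro M' B' h1 h2 h3 c hc _ _
  refine h M' _ h1 h2 ?_
  rw [Set.disjoint_insert_left]
  exact ⟨hc, h3⟩

theorem maxN_eq (a b : ℕ) : maxN a b = max a b := by
  have key : ∀ x : ℕ, x = a - b →
      (Nat.rec (motive := fun _ => ℕ) b (fun _ _ => a) x : ℕ) = max a b := by
    intro x hx
    cases x with
    | zero => change b = _; omega
    | succ p => change a = _; omega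
  exact key _ rfl

theorem Part.merge {n M S U n1 M1 S1 c : ℕ} (h : Part n M S U) (h1 : Comp n1 M1 S1)
    (hc : cellOf c ∉ cellsOf S1) :
    Part (maxN n n1) (Nat.lor M M1) (Nat.lor S S1)
      (Nat.xor (Nat.lor U (Nat.shiftLeft 1 c)) (Nat.shiftLeft 1 c)) := by
  intro M' B' hM hdM hdB d hd hdM' hdB'
  rw [cellsOf_lor] at hM hdM hdB
  rw [Set.union_subset_iff] at hM
  rw [Set.disjoint_union_right] at hdM hdB
  rw [maxN_eq]
  by_cases hdc : d = cellOf c
  · subst hdc
    have := h1 M' (insert (cellOf c) B') hM.2 hdM.2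
      (by rw [Set.disjoint_insert_left]; exact ⟨hc, hdB.2⟩)
    exact Wins.mono_budget (le_max_right _ _) this
  · have hdU : d ∉ cellsOf U := fun hh => hd (mem_cellsOf_clr.mpr ⟨hh, hdc⟩)
    exact Wins.mono_budget (le_max_left _ _) (h M' B' hM.1 hdM.1 hdB.1 d hdU hdM' hdB')

theorem Part.play {n M S U m : ℕ} (h : Part n M S U) (hU : U = 0)
    (hm : Nat.land S (Nat.shiftLeft 1 m) = 0) :
    Comp (Nat.succ n) (Nat.xor (Nat.lor M (Nat.shiftLeft 1 m)) (Nat.shiftLeft 1 m))
      (Nat.lor S (Nat.shiftLeft 1 m)) := by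
  subst hU
  intro M' B' hM hdM hdB
  rw [cellsOf_lor, cellsOf_bit, Set.disjoint_union_right, Set.disjoint_singleton_right] at hdM hdB
  refine Or.inr ⟨cellOf m, hdM.2, hdB.2, fun c hcm hcM hcB => ?_⟩
  refine h (insert (cellOf m) M') B' ?_ ?_ hdB.1 c ?_ ?_ hcB
  · intro p hp
    by_cases hpm : p = cellOf m
    · exact Or.inl hpm
    · exact Or.inr (hM (mem_cellsOf_clr.mpr ⟨hp, hpm⟩))
  · rw [Set.disjoint_insert_left]
    exact ⟨not_mem_of_land hm, hdM.1⟩
  · rw [cellsOf_zero]; simp
  · rintro (h | h)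
    · exact hcm h
    · exact hcM h

theorem Comp.play {n M S m : ℕ} (h : Comp n M S) (hS : S = 0) :
    Comp (Nat.succ n) (Nat.xor (Nat.lor M (Nat.shiftLeft 1 m)) (Nat.shiftLeft 1 m))
      (Nat.shiftLeft 1 m) := by
  subst hS
  have h' : Part n M 0 0 := h.toPart
  have := h'.play (m := m) rfl (by simp [Nat.land])
  have h2 : Nat.lor 0 (Nat.shiftLeft 1 m) = Nat.shiftLeft 1 m := by
    change 0 ||| Nat.shiftLeft 1 m = _
    simp
  rwa [h2] at this

/-! ### Stack and store -/

/-- All items of a stack are proved. -/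
def StackValid : Stack → Prop
  | .nil => True
  | .comp n M S rest => Comp n M S ∧ StackValid rest
  | .part n M S U rest => Part n M S U ∧ StackValid rest

/-- All items of a store are proved. -/
def MemoValid : Memo → Prop
  | .nil => True
  | .node n M S l r => Comp n M S ∧ MemoValid l ∧ MemoValid r

theorem sv_comp {n M S : ℕ} {rest : Stack} (a : Comp n M S) (b : StackValid rest) :
    StackValid (.comp n M S rest) := And.intro a b

theorem sv_part {n M S U : ℕ} {rest : Stack} (a : Part n M S U) (b : StackValid rest) :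
    StackValid (.part n M S U rest) := And.intro a b

theorem mv_node {n M S : ℕ} {l r : Memo} (a : Comp n M S) (b : MemoValid l) (c : MemoValid r) :
    MemoValid (.node n M S l r) := And.intro a (And.intro b c)

/-- A continuation that returning `true` from a valid state proves `R`. -/
def Sound (R : Prop) (k : Cont) : Prop :=
  ∀ st me, StackValid st → MemoValid me → k st me = true → R

theorem bool_rec_true {c : Bool} {t : Bool}
    (h : Bool.rec (motive := fun _ => Bool) false t c = true) : c = true ∧ t = true := by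
  cases c
  · exact absurd h (by simp)
  · exact ⟨rfl, h⟩

theorem ifB_true {c t e : Bool} (h : ifB c t e = true) (he : e = false) : c = true ∧ t = true := by
  subst he
  exact bool_rec_true h

/-! ### Leaves -/

theorem mem_leaf {pat corner dx dy : ℕ} {x y : ℤ} (hb : pat.testBit (dx + 32 * dy) = true)
    (hc : corner % 32 + dx < 32) (hx : x = ((corner % 32 : ℕ) : ℤ) + dx)
    (hy : y = ((corner / 32 : ℕ) : ℤ) + dy) :
    (x, y) ∈ cellsOf (Nat.shiftLeft pat corner) := by
  refine ⟨corner + (dx + 32 * dy), ?_, ?_⟩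
  · change (pat <<< corner).testBit _ = true
    rw [Nat.testBit_shiftLeft]
    simp [hb]
  · simp only [cellOf, Prod.mk.injEq]
    constructor
    · rw [hx]
      have : (corner + (dx + 32 * dy)) % 32 = corner % 32 + dx := by omega
      rw [this]; push_cast; ring
    · rw [hy]
      have : (corner + (dx + 32 * dy)) / 32 = corner / 32 + dy := by omega
      rw [this]; push_cast; ring

theorem copy_leaf_0 (corner : ℕ) (hc : corner % 32 ≤ 27) :
    ContainsCopy (cellsOf (Nat.shiftLeft 0x180000000f corner)) := by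
  refine ⟨(((corner % 32 : ℕ) : ℤ) + 0, ((corner / 32 : ℕ) : ℤ) + 0), 1, 1, Or.inl rfl, Or.inl rfl, Or.inl ?_⟩
  intro p hp
  simp only [snaky, Finset.mem_insert, Finset.mem_singleton] at hp
  rcases hp with rfl | rfl | rfl | rfl | rfl | rfl
  · exact mem_leaf (dx := 0) (dy := 0) (by decide) (by omega) (by norm_num <;> ring) (by norm_num <;> ring)
  · exact mem_leaf (dx := 1) (dy := 0) (by decide) (by omega) (by norm_num <;> ring) (by norm_num <;> ring)
  · exact mem_leaf (dx := 2) (dy := 0) (by decide) (by omega) (by norm_num <;> ring) (by norm_num <;> ring)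
  · exact mem_leaf (dx := 3) (dy := 0) (by decide) (by omega) (by norm_num <;> ring) (by norm_num <;> ring)
  · exact mem_leaf (dx := 3) (dy := 1) (by decide) (by omega) (by norm_num <;> ring) (by norm_num <;> ring)
  · exact mem_leaf (dx := 4) (dy := 1) (by decide) (by omega) (by norm_num <;> ring) (by norm_num <;> ring)

theorem copy_leaf_1 (corner : ℕ) (hc : corner % 32 ≤ 27) :
    ContainsCopy (cellsOf (Nat.shiftLeft 0xf00000018 corner)) := by
  refine ⟨(((corner % 32 : ℕ) : ℤ) + 0, ((corner / 32 : ℕ) : ℤ) + 1), 1, -1, Or.inl rfl, Or.inr rfl, Or.inl ?_⟩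
  intro p hp
  simp only [snaky, Finset.mem_insert, Finset.mem_singleton] at hp
  rcases hp with rfl | rfl | rfl | rfl | rfl | rfl
  · exact mem_leaf (dx := 0) (dy := 1) (by decide) (by omega) (by norm_num <;> ring) (by norm_num <;> ring)
  · exact mem_leaf (dx := 1) (dy := 1) (by decide) (by omega) (by norm_num <;> ring) (by norm_num <;> ring)
  · exact mem_leaf (dx := 2) (dy := 1) (by decide) (by omega) (by norm_num <;> ring) (by norm_num <;> ring)
  · exact mem_leaf (dx := 3) (dy := 1) (by decide) (by omega) (by norm_num <;> ring) (by norm_num <;> ring)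
  · exact mem_leaf (dx := 3) (dy := 0) (by decide) (by omega) (by norm_num <;> ring) (by norm_num <;> ring)
  · exact mem_leaf (dx := 4) (dy := 0) (by decide) (by omega) (by norm_num <;> ring) (by norm_num <;> ring)

theorem copy_leaf_2 (corner : ℕ) (hc : corner % 32 ≤ 27) :
    ContainsCopy (cellsOf (Nat.shiftLeft 0x30000001e corner)) := by
  refine ⟨(((corner % 32 : ℕ) : ℤ) + 4, ((corner / 32 : ℕ) : ℤ) + 0), -1, 1, Or.inr rfl, Or.inl rfl, Or.inl ?_⟩
  intro p hp
  simp only [snaky, Finset.mem_insert, Finset.mem_singleton] at hp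
  rcases hp with rfl | rfl | rfl | rfl | rfl | rfl
  · exact mem_leaf (dx := 4) (dy := 0) (by decide) (by omega) (by norm_num <;> ring) (by norm_num <;> ring)
  · exact mem_leaf (dx := 3) (dy := 0) (by decide) (by omega) (by norm_num <;> ring) (by norm_num <;> ring)
  · exact mem_leaf (dx := 2) (dy := 0) (by decide) (by omega) (by norm_num <;> ring) (by norm_num <;> ring)
  · exact mem_leaf (dx := 1) (dy := 0) (by decide) (by omega) (by norm_num <;> ring) (by norm_num <;> ring)
  · exact mem_leaf (dx := 1) (dy := 1) (by decide) (by omega) (by norm_num <;> ring) (by norm_num <;> ring)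
  · exact mem_leaf (dx := 0) (dy := 1) (by decide) (by omega) (by norm_num <;> ring) (by norm_num <;> ring)

theorem copy_leaf_3 (corner : ℕ) (hc : corner % 32 ≤ 27) :
    ContainsCopy (cellsOf (Nat.shiftLeft 0x1e00000003 corner)) := by
  refine ⟨(((corner % 32 : ℕ) : ℤ) + 4, ((corner / 32 : ℕ) : ℤ) + 1), -1, -1, Or.inr rfl, Or.inr rfl, Or.inl ?_⟩
  intro p hp
  simp only [snaky, Finset.mem_insert, Finset.mem_singleton] at hp
  rcases hp with rfl | rfl | rfl | rfl | rfl | rfl
  · exact mem_leaf (dx := 4) (dy := 1) (by decide) (by omega) (by norm_num <;> ring) (by norm_num <;> ring)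
  · exact mem_leaf (dx := 3) (dy := 1) (by decide) (by omega) (by norm_num <;> ring) (by norm_num <;> ring)
  · exact mem_leaf (dx := 2) (dy := 1) (by decide) (by omega) (by norm_num <;> ring) (by norm_num <;> ring)
  · exact mem_leaf (dx := 1) (dy := 1) (by decide) (by omega) (by norm_num <;> ring) (by norm_num <;> ring)
  · exact mem_leaf (dx := 1) (dy := 0) (by decide) (by omega) (by norm_num <;> ring) (by norm_num <;> ring)
  · exact mem_leaf (dx := 0) (dy := 0) (by decide) (by omega) (by norm_num <;> ring) (by norm_num <;> ring)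

theorem copy_leaf_4 (corner : ℕ) (hc : corner % 32 ≤ 27) :
    ContainsCopy (cellsOf (Nat.shiftLeft 0x200000003000000010000000100000001 corner)) := by
  refine ⟨(((corner % 32 : ℕ) : ℤ) + 0, ((corner / 32 : ℕ) : ℤ) + 0), 1, 1, Or.inl rfl, Or.inl rfl, Or.inr ?_⟩
  intro p hp
  simp only [snaky, Finset.mem_insert, Finset.mem_singleton] at hp
  rcases hp with rfl | rfl | rfl | rfl | rfl | rfl
  · exact mem_leaf (dx := 0) (dy := 0) (by decide) (by omega) (by norm_num <;> ring) (by norm_num <;> ring)
  · exact mem_leaf (dx := 0) (dy := 1) (by decide) (by omega) (by norm_num <;> ring) (by norm_num <;> ring)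
  · exact mem_leaf (dx := 0) (dy := 2) (by decide) (by omega) (by norm_num <;> ring) (by norm_num <;> ring)
  · exact mem_leaf (dx := 0) (dy := 3) (by decide) (by omega) (by norm_num <;> ring) (by norm_num <;> ring)
  · exact mem_leaf (dx := 1) (dy := 3) (by decide) (by omega) (by norm_num <;> ring) (by norm_num <;> ring)
  · exact mem_leaf (dx := 1) (dy := 4) (by decide) (by omega) (by norm_num <;> ring) (by norm_num <;> ring)

theorem copy_leaf_5 (corner : ℕ) (hc : corner % 32 ≤ 27) :
    ContainsCopy (cellsOf (Nat.shiftLeft 0x100000001000000010000000300000002 corner)) := by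
  refine ⟨(((corner % 32 : ℕ) : ℤ) + 0, ((corner / 32 : ℕ) : ℤ) + 4), 1, -1, Or.inl rfl, Or.inr rfl, Or.inr ?_⟩
  intro p hp
  simp only [snaky, Finset.mem_insert, Finset.mem_singleton] at hp
  rcases hp with rfl | rfl | rfl | rfl | rfl | rfl
  · exact mem_leaf (dx := 0) (dy := 4) (by decide) (by omega) (by norm_num <;> ring) (by norm_num <;> ring)
  · exact mem_leaf (dx := 0) (dy := 3) (by decide) (by omega) (by norm_num <;> ring) (by norm_num <;> ring)
  · exact mem_leaf (dx := 0) (dy := 2) (by decide) (by omega) (by norm_num <;> ring) (by norm_num <;> ring)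
  · exact mem_leaf (dx := 0) (dy := 1) (by decide) (by omega) (by norm_num <;> ring) (by norm_num <;> ring)
  · exact mem_leaf (dx := 1) (dy := 1) (by decide) (by omega) (by norm_num <;> ring) (by norm_num <;> ring)
  · exact mem_leaf (dx := 1) (dy := 0) (by decide) (by omega) (by norm_num <;> ring) (by norm_num <;> ring)

theorem copy_leaf_6 (corner : ℕ) (hc : corner % 32 ≤ 27) :
    ContainsCopy (cellsOf (Nat.shiftLeft 0x100000003000000020000000200000002 corner)) := by
  refine ⟨(((corner % 32 : ℕ) : ℤ) + 1, ((corner / 32 : ℕ) : ℤ) + 0), -1, 1, Or.inr rfl, Or.inl rfl, Or.inr ?_⟩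
  intro p hp
  simp only [snaky, Finset.mem_insert, Finset.mem_singleton] at hp
  rcases hp with rfl | rfl | rfl | rfl | rfl | rfl
  · exact mem_leaf (dx := 1) (dy := 0) (by decide) (by omega) (by norm_num <;> ring) (by norm_num <;> ring)
  · exact mem_leaf (dx := 1) (dy := 1) (by decide) (by omega) (by norm_num <;> ring) (by norm_num <;> ring)
  · exact mem_leaf (dx := 1) (dy := 2) (by decide) (by omega) (by norm_num <;> ring) (by norm_num <;> ring)
  · exact mem_leaf (dx := 1) (dy := 3) (by decide) (by omega) (by norm_num <;> ring) (by norm_num <;> ring)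
  · exact mem_leaf (dx := 0) (dy := 3) (by decide) (by omega) (by norm_num <;> ring) (by norm_num <;> ring)
  · exact mem_leaf (dx := 0) (dy := 4) (by decide) (by omega) (by norm_num <;> ring) (by norm_num <;> ring)

theorem copy_leaf_7 (corner : ℕ) (hc : corner % 32 ≤ 27) :
    ContainsCopy (cellsOf (Nat.shiftLeft 0x200000002000000020000000300000001 corner)) := by
  refine ⟨(((corner % 32 : ℕ) : ℤ) + 1, ((corner / 32 : ℕ) : ℤ) + 4), -1, -1, Or.inr rfl, Or.inr rfl, Or.inr ?_⟩
  intro p hp
  simp only [snaky, Finset.mem_insert, Finset.mem_singleton] at hp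
  rcases hp with rfl | rfl | rfl | rfl | rfl | rfl
  · exact mem_leaf (dx := 1) (dy := 4) (by decide) (by omega) (by norm_num <;> ring) (by norm_num <;> ring)
  · exact mem_leaf (dx := 1) (dy := 3) (by decide) (by omega) (by norm_num <;> ring) (by norm_num <;> ring)
  · exact mem_leaf (dx := 1) (dy := 2) (by decide) (by omega) (by norm_num <;> ring) (by norm_num <;> ring)
  · exact mem_leaf (dx := 1) (dy := 1) (by decide) (by omega) (by norm_num <;> ring) (by norm_num <;> ring)
  · exact mem_leaf (dx := 0) (dy := 1) (by decide) (by omega) (by norm_num <;> ring) (by norm_num <;> ring)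
  · exact mem_leaf (dx := 0) (dy := 0) (by decide) (by omega) (by norm_num <;> ring) (by norm_num <;> ring)

theorem patOf_cases (o : ℕ) (ho : o < 8) :
    patOf o = 0x180000000f ∧ o = 0 ∨ patOf o = 0xf00000018 ∧ o = 1 ∨ patOf o = 0x30000001e ∧ o = 2 ∨
    patOf o = 0x1e00000003 ∧ o = 3 ∨ patOf o = 0x200000003000000010000000100000001 ∧ o = 4 ∨
    patOf o = 0x100000001000000010000000300000002 ∧ o = 5 ∨
    patOf o = 0x100000003000000020000000200000002 ∧ o = 6 ∨
    patOf o = 0x200000002000000020000000300000001 ∧ o = 7 := by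
  interval_cases o <;> simp only [] <;> decide +kernel

theorem copy_leaf (o corner : ℕ) (ho : o < 8) (hc : corner % 32 ≤ 27) :
    ContainsCopy (cellsOf (Nat.shiftLeft (patOf o) corner)) := by
  rcases patOf_cases o ho with ⟨h, -⟩ | ⟨h, -⟩ | ⟨h, -⟩ | ⟨h, -⟩ | ⟨h, -⟩ | ⟨h, -⟩ | ⟨h, -⟩ | ⟨h, -⟩ <;> rw [h]
  · exact copy_leaf_0 corner hc
  · exact copy_leaf_1 corner hc
  · exact copy_leaf_2 corner hc
  · exact copy_leaf_3 corner hc
  · exact copy_leaf_4 corner hc
  · exact copy_leaf_5 corner hc
  · exact copy_leaf_6 corner hc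
  · exact copy_leaf_7 corner hc

theorem Comp.leaf (o corner : ℕ) (ho : o < 8) (hc : corner % 32 ≤ 27) :
    Comp 0 (Nat.shiftLeft (patOf o) corner) 0 :=
  fun _ _ h1 _ _ => containsCopy_mono h1 (copy_leaf o corner ho hc)


/-! ### Operations -/

theorem sound_opLeaf {R : Prop} {k : Cont} (hk : Sound R k) (arg : ℕ) :
    Sound R (fun st me => opLeaf k st me arg) := by
  intro st me hst hme h
  obtain ⟨h1, h2⟩ := bool_rec_true h
  have h3 : arg % 32 ≤ 27 := Nat.le_of_ble_eq_true h1
  refine hk _ me (sv_comp ?_ hst) hme h2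
  exact Comp.leaf _ _ (Nat.mod_lt _ (by norm_num)) (by
    change arg % 1024 % 32 ≤ 27
    omega)

theorem sound_opBranch {R : Prop} {k : Cont} (hk : Sound R k) (c : ℕ) :
    Sound R (fun st me => opBranch k st me c) := by
  intro st me hst hme h
  cases st with
  | nil => exact absurd h (by simp [opBranch])
  | part n M S U rest => exact absurd h (by simp [opBranch, fls5])
  | comp n1 M1 S1 rest =>
    obtain ⟨h1, h2⟩ := hst
    have h' : br1 k me (Nat.shiftLeft 1 c) n1 M1 S1 rest false = true := h
    obtain ⟨h3, h4⟩ := bool_rec_true h'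
    have h5 : Nat.land S1 (Nat.shiftLeft 1 c) = 0 := Nat.eq_of_beq_eq_true h3
    have hc := not_mem_of_land h5
    cases rest with
    | nil => exact absurd h4 (by simp)
    | comp n M S rest' =>
      obtain ⟨h6, h7⟩ := h2
      exact hk _ me (sv_part (h6.toPart.merge h1 hc) h7) hme h4
    | part n M S U rest' =>
      obtain ⟨h6, h7⟩ := h2
      exact hk _ me (sv_part (h6.merge h1 hc) h7) hme h4

theorem sound_opPlay {R : Prop} {k : Cont} (hk : Sound R k) (m : ℕ) :
    Sound R (fun st me => opPlay k st me m) := by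
  intro st me hst hme h
  cases st with
  | nil => exact absurd h (by simp [opPlay])
  | comp n M S rest =>
    obtain ⟨h1, h2⟩ := hst
    have h' : plC k me (Nat.shiftLeft 1 m) n M S rest false = true := h
    obtain ⟨h3, h4⟩ := bool_rec_true h'
    have h5 : S * (Nat.succ _) = 0 := Nat.eq_of_beq_eq_true h3
    have h6 : S = 0 := by
      rcases Nat.mul_eq_zero.mp h5 with h | h
      · exact h
      · exact absurd h (Nat.succ_ne_zero _)
    exact hk _ me (sv_comp (h1.play h6) h2) hme h4
  | part n M S U rest =>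
    obtain ⟨h1, h2⟩ := hst
    have h' : plP k me (Nat.shiftLeft 1 m) n M S U rest false = true := h
    obtain ⟨h3, h4⟩ := bool_rec_true h'
    have h5 : (U ||| (S &&& Nat.shiftLeft 1 m)) * (Nat.succ _) = 0 := Nat.eq_of_beq_eq_true h3
    have h6 : U ||| (S &&& Nat.shiftLeft 1 m) = 0 := by
      rcases Nat.mul_eq_zero.mp h5 with h | h
      · exact h
      · exact absurd h (Nat.succ_ne_zero _)
    rw [Nat.or_eq_zero_iff] at h6
    exact hk _ me (sv_comp (h1.play h6.1 h6.2) h2) hme h4

theorem insertK_sound {R : Prop} {n M S : ℕ} (hc : Comp n M S) (me : Memo) :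
    MemoValid me → ∀ (i : ℕ) (k : Memo → Bool), (∀ me', MemoValid me' → k me' = true → R) →
      insertK n M S me i k = true → R := by
  induction me with
  | nil =>
    intro _ i k hk h
    exact hk _ (mv_node (l := Memo.nil) (r := Memo.nil) hc trivial trivial) h
  | node n' M' S' l r ihl ihr =>
    intro hv i k hk h
    obtain ⟨h1, h2, h3⟩ := hv
    cases i with
    | zero => exact hk _ (mv_node h1 h2 h3) h
    | succ p =>
      have h' : nz (Nat.mod p 2)
        (insertK n M S l (Nat.div p 2) fun l' => k (Memo.node n' M' S' l' r))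
        (fun _ => insertK n M S r (Nat.div p 2) fun r' => k (Memo.node n' M' S' l r')) = true := h
      cases hp : Nat.mod p 2 with
      | zero =>
        rw [hp] at h'
        exact ihl h2 _ _ (fun l' hl' => hk _ (mv_node h1 hl' h3)) h'
      | succ q =>
        rw [hp] at h'
        exact ihr h3 _ _ (fun r' hr' => hk _ (mv_node h1 h2 hr')) h'

theorem lookupK_sound {R : Prop} (me : Memo) :
    MemoValid me → ∀ (i : ℕ) (k : ℕ → ℕ → ℕ → Bool), (∀ n M S, Comp n M S → k n M S = true → R) →
      lookupK me i k = true → R := by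
  induction me with
  | nil =>
    intro _ i k _ h
    exact absurd h (by simp [lookupK])
  | node n' M' S' l r ihl ihr =>
    intro hv i k hk h
    obtain ⟨h1, h2, h3⟩ := hv
    cases i with
    | zero => exact hk _ _ _ h1 h
    | succ p =>
      have h' : nz (Nat.mod p 2)
        (lookupK l (Nat.div p 2) k)
        (fun _ => lookupK r (Nat.div p 2) k) = true := h
      cases hp : Nat.mod p 2 with
      | zero =>
        rw [hp] at h'
        exact ihl h2 _ _ hk h'
      | succ q =>
        rw [hp] at h'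
        exact ihr h3 _ _ hk h'

theorem sound_opStore {R : Prop} {k : Cont} (hk : Sound R k) (i : ℕ) :
    Sound R (fun st me => opStore k st me i) := by
  intro st me hst hme h
  cases st with
  | nil => exact absurd h (by simp [opStore])
  | part n M S U rest => exact absurd h (by simp [opStore])
  | comp n M S rest =>
    have h' : insertK n M S me i (fun me' => k (Stack.comp n M S rest) me') = true := h
    exact insertK_sound hst.1 me hme i _ (fun me' hme' hh => hk _ me' hst hme' hh) h'

theorem sound_opRef {R : Prop} {k : Cont} (hk : Sound R k) (i : ℕ) :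
    Sound R (fun st me => opRef k st me i) := by
  intro st me hst hme h
  exact lookupK_sound me hme i _ (fun n M S hc hh => hk _ me (sv_comp hc hst) hme hh) h

/-! ### Symmetries -/

/-- One coordinate of a symmetry. -/
def coordZ (e t : ℕ) (u : ℤ) : ℤ := if e = 0 then u + t - 32 else t - u

/-- The symmetry of the board given by its parameters. -/
def symCell (sw e1 e2 tx ty : ℕ) (p : Cell) : Cell :=
  if sw = 0 then (coordZ e1 tx p.1, coordZ e2 ty p.2) else (coordZ e1 tx p.2, coordZ e2 ty p.1)

theorem coordZ_inj (e t : ℕ) {u v : ℤ} (h : coordZ e t u = coordZ e t v) : u = v := by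
  unfold coordZ at h
  split_ifs at h <;> omega

theorem coordZ_surj (e t : ℕ) (w : ℤ) : ∃ u, coordZ e t u = w := by
  unfold coordZ
  split_ifs
  · exact ⟨w - t + 32, by ring⟩
  · exact ⟨t - w, by ring⟩

theorem symCell_bijective (sw e1 e2 tx ty : ℕ) : Function.Bijective (symCell sw e1 e2 tx ty) := by
  constructor
  · rintro ⟨a, b⟩ ⟨c, d⟩ h
    unfold symCell at h
    split_ifs at h
    · simp only [Prod.mk.injEq] at h
      rw [coordZ_inj _ _ h.1, coordZ_inj _ _ h.2]
    · simp only [Prod.mk.injEq] at h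
      rw [coordZ_inj _ _ h.1, coordZ_inj _ _ h.2]
  · rintro ⟨a, b⟩
    obtain ⟨u, hu⟩ := coordZ_surj e1 tx a
    obtain ⟨v, hv⟩ := coordZ_surj e2 ty b
    by_cases hs : sw = 0
    · exact ⟨(u, v), by simp [symCell, hs, hu, hv]⟩
    · exact ⟨(v, u), by simp [symCell, hs, hu, hv]⟩

theorem coordZ_sign (e t : ℕ) : ∃ s a : ℤ, (s = 1 ∨ s = -1) ∧ ∀ u, coordZ e t u = a + s * u := by
  by_cases h : e = 0
  · exact ⟨1, (t : ℤ) - 32, Or.inl rfl, fun u => by simp [coordZ, h]; ring⟩
  · exact ⟨-1, t, Or.inr rfl, fun u => by simp [coordZ, h]; ring⟩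

theorem sign_mul {s e : ℤ} (hs : s = 1 ∨ s = -1) (he : e = 1 ∨ e = -1) : s * e = 1 ∨ s * e = -1 := by
  rcases hs with rfl | rfl <;> rcases he with rfl | rfl <;> simp

theorem containsCopy_sym (sw e1 e2 tx ty : ℕ) {X : Set Cell} (h : ContainsCopy X) :
    ContainsCopy (symCell sw e1 e2 tx ty '' X) := by
  obtain ⟨t, eps1, eps2, h1, h2, h3⟩ := h
  obtain ⟨s1, a1, hs1, ha1⟩ := coordZ_sign e1 tx
  obtain ⟨s2, a2, hs2, ha2⟩ := coordZ_sign e2 ty
  by_cases hsw : sw = 0
  · refine ⟨(a1 + s1 * t.1, a2 + s2 * t.2), s1 * eps1, s2 * eps2, sign_mul hs1 h1, sign_mul hs2 h2, ?_⟩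
    rcases h3 with h3 | h3
    · refine Or.inl fun p hp => ⟨_, h3 p hp, ?_⟩
      simp only [symCell, hsw, if_true, ha1, ha2, Prod.mk.injEq]
      constructor <;> ring
    · refine Or.inr fun p hp => ⟨_, h3 p hp, ?_⟩
      simp only [symCell, hsw, if_true, ha1, ha2, Prod.mk.injEq]
      constructor <;> ring
  · refine ⟨(a1 + s1 * t.2, a2 + s2 * t.1), s1 * eps2, s2 * eps1, sign_mul hs1 h2, sign_mul hs2 h1, ?_⟩
    rcases h3 with h3 | h3
    · refine Or.inr fun p hp => ⟨_, h3 p hp, ?_⟩
      simp only [symCell, hsw, if_false, ha1, ha2, Prod.mk.injEq]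
      constructor <;> ring
    · refine Or.inl fun p hp => ⟨_, h3 p hp, ?_⟩
      simp only [symCell, hsw, if_false, ha1, ha2, Prod.mk.injEq]
      constructor <;> ring

theorem wins_image {g : Cell → Cell} (hg : Function.Bijective g)
    (hc : ∀ X, ContainsCopy X → ContainsCopy (g '' X)) :
    ∀ (n : ℕ) (M B : Set Cell), Wins n M B → Wins n (g '' M) (g '' B)
  | 0, _, _, h => hc _ h
  | n + 1, M, B, h => by
    rcases h with h | ⟨m, h1, h2, h3⟩
    · exact Or.inl (hc _ h)
    · refine Or.inr ⟨g m, ?_, ?_, ?_⟩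
      · rintro ⟨x, hx, hxg⟩
        exact h1 (hg.1 hxg ▸ hx)
      · rintro ⟨x, hx, hxg⟩
        exact h2 (hg.1 hxg ▸ hx)
      · intro c hcm hcM hcB
        obtain ⟨d, rfl⟩ := hg.2 c
        have hdm : d ≠ m := fun hh => hcm (by rw [hh])
        have hdM : d ∉ M := fun hh => hcM ⟨d, hh, rfl⟩
        have hdB : d ∉ B := fun hh => hcB ⟨d, hh, rfl⟩
        have := wins_image hg hc n _ _ (h3 d hdm hdM hdB)
        rwa [Set.image_insert_eq, Set.image_insert_eq] at this

theorem Comp.sym {n M S M' S' sw e1 e2 tx ty : ℕ} (h : Comp n M S)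
    (hM : cellsOf M' = symCell sw e1 e2 tx ty '' cellsOf M)
    (hS : cellsOf S' = symCell sw e1 e2 tx ty '' cellsOf S) : Comp n M' S' := by
  set g := symCell sw e1 e2 tx ty with hgdef
  have hg : Function.Bijective g := symCell_bijective sw e1 e2 tx ty
  intro M2 B2 h1 h2 h3
  have hw := h (g ⁻¹' M2) (g ⁻¹' B2)
    (fun p hp => h1 (hM ▸ ⟨p, hp, rfl⟩))
    (Set.disjoint_left.mpr fun p hp hq => Set.disjoint_left.mp h2 hp (hS ▸ ⟨p, hq, rfl⟩))
    (Set.disjoint_left.mpr fun p hp hq => Set.disjoint_left.mp h3 hp (hS ▸ ⟨p, hq, rfl⟩))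
  have := wins_image hg (fun X hX => containsCopy_sym sw e1 e2 tx ty hX) n _ _ hw
  rwa [Set.image_preimage_eq _ hg.2, Set.image_preimage_eq _ hg.2] at this

theorem fb_eq (x : ℕ) (f : ℕ → Bool) : fb x f = f x := rfl

theorem coord_true {e t u : ℕ} {k : ℕ → Bool} (h : coord e t u k = true) :
    ∃ r, k r = true ∧ (r : ℤ) = coordZ e t u := by
  unfold coord at h
  cases e with
  | zero =>
    obtain ⟨h1, h2⟩ := bool_rec_true h
    have h3 : 32 ≤ u + t := Nat.le_of_ble_eq_true h1
    refine ⟨_, h2, ?_⟩
    change ((u + t - 32 : ℕ) : ℤ) = _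
    simp only [coordZ, if_true]
    push_cast [h3]
    omega
  | succ q =>
    obtain ⟨h1, h2⟩ := bool_rec_true h
    have h3 : u ≤ t := Nat.le_of_ble_eq_true h1
    refine ⟨_, h2, ?_⟩
    change ((t - u : ℕ) : ℤ) = _
    simp only [coordZ, Nat.succ_ne_zero, if_false]
    omega

theorem mapOne_true {sw e1 e2 tx ty i : ℕ} {k : ℕ → Bool} (h : mapOne sw e1 e2 tx ty i k = true) :
    ∃ i', k i' = true ∧ cellOf i' = symCell sw e1 e2 tx ty (cellOf i) := by
  unfold mapOne at h
  simp only [fb_eq] at h
  have key : ∀ (x' y' : ℕ), x' ≤ 31 → (cellOf (Nat.add x' (Nat.mul 32 y'))) = ((x' : ℤ), (y' : ℤ)) := by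
    intro x' y' hx
    simp only [cellOf, Prod.mk.injEq, Nat.cast_inj]
    change (x' + 32 * y') % 32 = x' ∧ (x' + 32 * y') / 32 = y'
    omega
  cases sw with
  | zero =>
    obtain ⟨x', h1, hx⟩ := coord_true h
    obtain ⟨h2, h3⟩ := bool_rec_true h1
    obtain ⟨y', h4, hy⟩ := coord_true h3
    refine ⟨_, h4, ?_⟩
    rw [key x' y' (Nat.le_of_ble_eq_true h2)]
    simp only [symCell, if_true, cellOf, hx, hy]
    rfl
  | succ q =>
    obtain ⟨x', h1, hx⟩ := coord_true h
    obtain ⟨h2, h3⟩ := bool_rec_true h1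
    obtain ⟨y', h4, hy⟩ := coord_true h3
    refine ⟨_, h4, ?_⟩
    rw [key x' y' (Nat.le_of_ble_eq_true h2)]
    simp only [symCell, Nat.succ_ne_zero, if_false, cellOf, hx, hy]
    rfl

theorem testBit_log2 {mask : ℕ} (h : mask ≠ 0) : mask.testBit (Nat.log2 mask) = true := by
  have h1 : 2 ^ Nat.log2 mask ≤ mask := Nat.log2_self_le h
  have h2 : mask < 2 ^ (Nat.log2 mask + 1) := Nat.lt_log2_self
  rw [Nat.testBit_eq_decide_div_mod_eq]
  simp only [decide_eq_true_eq]
  have h3 : mask / 2 ^ Nat.log2 mask = 1 := by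
    apply Nat.eq_of_le_of_lt_succ
    · exact (Nat.one_le_div_iff (by positivity)).mpr h1
    · rw [Nat.div_lt_iff_lt_mul (by positivity)]
      rw [pow_succ] at h2
      omega
  rw [h3]

theorem cellsOf_remove {mask i : ℕ} (h : mask.testBit i = true) :
    cellsOf mask = cellsOf (Nat.xor mask (Nat.shiftLeft 1 i)) ∪ {cellOf i} := by
  ext p
  constructor
  · rintro ⟨j, hj, rfl⟩
    by_cases hji : j = i
    · subst hji; exact Or.inr rfl
    · refine Or.inl ⟨j, ?_, rfl⟩
      change (mask ^^^ Nat.shiftLeft 1 i).testBit j = true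
      rw [Nat.testBit_xor, testBit_bit]
      simp [hj, hji]
  · rintro (⟨j, hj, rfl⟩ | rfl)
    · have h1 : (mask ^^^ Nat.shiftLeft 1 i).testBit j = true := hj
      rw [Nat.testBit_xor, testBit_bit] at h1
      by_cases hji : j = i
      · subst hji; exact ⟨j, h, rfl⟩
      · simp only [hji, decide_false, Bool.xor_false] at h1
        exact ⟨j, h1, rfl⟩
    · exact ⟨i, h, rfl⟩

theorem mapMask_true {sw e1 e2 tx ty : ℕ} (fuel : ℕ) : ∀ (mask acc : ℕ) (k : ℕ → Bool),
    mapMask sw e1 e2 tx ty fuel mask acc k = true →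
    ∃ r, k r = true ∧ cellsOf r = cellsOf acc ∪ symCell sw e1 e2 tx ty '' cellsOf mask := by
  induction fuel with
  | zero =>
    intro mask acc k h
    exact absurd h (by simp [mapMask])
  | succ f ih =>
    intro mask acc k h
    have h' : nz mask (k acc) (fun _ =>
      mapOne sw e1 e2 tx ty (Nat.log2 mask) fun i' =>
      mapMask sw e1 e2 tx ty f (Nat.xor mask (Nat.shiftLeft 1 (Nat.log2 mask)))
        (Nat.lor acc (Nat.shiftLeft 1 i')) k) = true := h
    by_cases hm : mask = 0
    · subst hm
      refine ⟨acc, h', ?_⟩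
      rw [cellsOf_zero]; simp
    · obtain ⟨q, rfl⟩ := Nat.exists_eq_succ_of_ne_zero hm
      have h2 : mapOne sw e1 e2 tx ty (Nat.log2 (Nat.succ q)) (fun i' =>
        mapMask sw e1 e2 tx ty f (Nat.xor (Nat.succ q) (Nat.shiftLeft 1 (Nat.log2 (Nat.succ q))))
          (Nat.lor acc (Nat.shiftLeft 1 i')) k) = true := h'
      obtain ⟨i', h3, h4⟩ := mapOne_true h2
      obtain ⟨r, h5, h6⟩ := ih _ _ _ h3
      refine ⟨r, h5, ?_⟩
      rw [h6, cellsOf_lor, cellsOf_bit, h4]
      conv_rhs => rw [cellsOf_remove (testBit_log2 hm)]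
      rw [Set.image_union, Set.image_singleton]
      ext p
      simp only [Set.mem_union, Set.mem_singleton_iff]
      tauto

theorem sound_opSym {R : Prop} {k : Cont} (hk : Sound R k) (arg par : ℕ) :
    Sound R (fun st me => opSym k st me arg par) := by
  intro st me hst hme h
  cases st with
  | nil => exact absurd h (by simp [opSym])
  | part n M S U rest => exact absurd h (by simp [opSym])
  | comp n M S rest =>
    have h' : mapMask (Nat.mod arg 2) (Nat.mod (Nat.div arg 2) 2) (Nat.mod (Nat.div arg 4) 2)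
        (Nat.mod par 64) (Nat.div par 64) 1100 M 0 (fun M' =>
          mapMask (Nat.mod arg 2) (Nat.mod (Nat.div arg 2) 2) (Nat.mod (Nat.div arg 4) 2)
            (Nat.mod par 64) (Nat.div par 64) 1100 S 0 (fun S' =>
              k (Stack.comp n M' S' rest) me)) = true := h
    obtain ⟨M', h1, h2⟩ := mapMask_true _ _ _ _ h'
    obtain ⟨S', h3, h4⟩ := mapMask_true _ _ _ _ h1
    rw [cellsOf_zero, Set.empty_union] at h2 h4
    exact hk _ me (sv_comp (hst.1.sym h2 h4) hst.2) hme h3

/-! ### The main loop -/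

theorem sound_stepTok {R : Prop} (p : ℕ) {ih : ℕ → Cont} (hih : ∀ c, Sound R (ih c)) (cur : ℕ) :
    Sound R (stepTok p ih cur) := by
  intro st me hst hme h
  unfold stepTok at h
  cases h1 : Nat.land cur 7 with
  | zero =>
    rw [h1] at h
    exact sound_opLeaf (hih _) _ st me hst hme h
  | succ q =>
    rw [h1] at h
    have h2 : d2 ih cur st me q false = true := h
    unfold d2 at h2
    cases q with
    | zero => exact sound_opPlay (hih _) _ st me hst hme h2
    | succ q =>
      have h3 : d3 ih cur st me q false = true := h2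
      unfold d3 at h3
      cases q with
      | zero => exact sound_opBranch (hih _) _ st me hst hme h3
      | succ q =>
        have h4 : d4 ih cur st me q false = true := h3
        unfold d4 at h4
        cases q with
        | zero => exact sound_opStore (hih _) _ st me hst hme h4
        | succ q =>
          have h5 : d5 ih cur st me q false = true := h4
          unfold d5 at h5
          cases q with
          | zero => exact sound_opRef (hih _) _ st me hst hme h5
          | succ q =>
            have h6 : d6 ih cur st me q false = true := h5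
            unfold d6 at h6
            exact sound_opSym (hih _) _ _ st me hst hme h6

theorem sound_runChunk {R : Prop} {k : Cont} (hk : Sound R k) (fuel : ℕ) :
    ∀ c, Sound R (runChunk k fuel c) := by
  induction fuel with
  | zero => exact fun _ => hk
  | succ f ih => exact fun c => sound_stepTok f ih c

theorem sound_runTree {R : Prop} (t : Chunks) :
    ∀ {k : Cont}, Sound R k → Sound R (runTree t k) := by
  induction t with
  | leaf fuel c => exact fun hk => sound_runChunk hk fuel c
  | node l r ihl ihr => exact fun hk => ihl (ihr hk)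

theorem sound_finCheck (n M S : ℕ) : Sound (Comp n M S) (finCheck n M S) := by
  intro st me hst _ h
  cases st with
  | nil => exact absurd h (by simp [finCheck])
  | part n' M' S' U' rest => exact absurd h (by simp [finCheck])
  | comp n' M' S' rest =>
    have h' : ifB (Nat.ble n' n) (ifB (Nat.beq M' M) (Nat.beq S' S) false) false = true := h
    obtain ⟨h1, h2⟩ := ifB_true h' rfl
    obtain ⟨h3, h4⟩ := ifB_true h2 rfl
    have h5 : M' = M := Nat.eq_of_beq_eq_true h3
    have h6 : S' = S := Nat.eq_of_beq_eq_true h4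
    subst h5 h6
    exact hst.1.mono (Nat.le_of_ble_eq_true h1)

/-- Main soundness theorem: a certificate run proves the announced item. -/
theorem comp_of_run (t : Chunks) (me : Memo) (hme : MemoValid me) (n M S : ℕ)
    (h : runTree t (finCheck n M S) Stack.nil me = true) : Comp n M S :=
  sound_runTree t (sound_finCheck n M S) Stack.nil me trivial hme h

/-- The root of a certificate. -/
theorem wins_of_comp {n S : ℕ} (h : Comp n 0 S) (hn : n ≤ 21) : Wins 21 ∅ ∅ := by
  refine Wins.mono_budget hn (h ∅ ∅ ?_ ?_ ?_)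
  · rw [cellsOf_zero]
  · simp
  · simp

end Crest.Agent.Lib.Snaky
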